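import Vale.Agent.P078.H598.Rate23

namespace Vale.Agent.Results.P078.GrowthTrichotomy

open Vale.Agent.P078.SO Vale.Agent.P078.C
open scoped InnerProductSpace

theorem result {H : Type*} [NormedAddCommGroup H] [InnerProductSpace ℂ H] [CompleteSpace H]
    (k : ℕ) (hk : 1 ≤ k) :
    (∀ M A : VonNeumannAlgebra H, IsMASA A M →
      (∀ ε : ℝ, 0 < ε → ε < 1 → jointPavingNumber M A k ε ≤ ⌈1200002 * (k : ℝ) / ε ^ 2⌉₊) ∧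
      (∀ N : ℕ, 1 ≤ N → IsSumOfAbelian M A 1 N →
        ∀ ε : ℝ, 0 < ε → jointPavingNumber M A k ε ≤ N) ∧
      ((∀ N : ℕ, ¬ IsSumOfAbelian M A 1 N) →
        ∀ ε : ℝ, 0 < ε → ⌈1 / ε⌉₊ ≤ jointPavingNumber M A k ε) ∧
      (∃ z, IsLargestExpected M A z ∧
        (∀ N : ℕ, IsSumOfAbelian M A z N →
          ∀ ε : ℝ, 0 < ε → jointPavingNumber M A k ε ≤ (N + (⌊1 / ε⌋₊ + 1) : ℕ)) ∧
        ∀ w ∈ A, IsStarProjection w → w ≤ z →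
          (IsSemifinite M 1 ∨ IsSemifinite M w → (∀ N : ℕ, ¬ IsSumOfAbelian M A w N) →
            ∀ ε : ℝ, 0 < ε → ⌈1 / ε ^ 2⌉₊ ≤ jointPavingNumber M A k ε) ∧
          ∀ M' : VonNeumannAlgebra H, (∀ x ∈ M', x ∈ M) → IsCartanMASA A M' →
            (∀ N : ℕ, ¬ IsSumOfAbelian M' A w N) →
            ∀ ε : ℝ, 0 < ε → ⌈1 / ε ^ 2⌉₊ ≤ jointPavingNumber M A k ε ∧
              (ε < 1 → ⌈(k : ℝ) / (2 * ε ^ 2)⌉₊ ≤ jointPavingNumber M A k ε)) ∧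
      ((∀ x, x ∈ M) → ¬ FiniteDimensional ℂ H →
        (∀ N : ℕ, (atoms A).encard = N → ∀ ε : ℝ, 0 < ε →
          ⌈1 / ε⌉₊ ≤ jointPavingNumber M A k ε ∧
          jointPavingNumber M A k ε ≤ (N + (⌊1 / ε⌋₊ + 1) : ℕ)) ∧
        ((atoms A).Infinite → ∀ ε : ℝ, 0 < ε → ⌈1 / ε ^ 2⌉₊ ≤ jointPavingNumber M A k ε ∧
          (ε < 1 → ⌈(k : ℝ) / (2 * ε ^ 2)⌉₊ ≤ jointPavingNumber M A k ε)))) ∧
    ∀ (ι : Type*) [Infinite ι] (b : HilbertBasis ι ℂ H), ∃ M A : VonNeumannAlgebra H,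
      (∀ x, x ∈ M) ∧ (∀ x, x ∈ A ↔ ∀ i j, i ≠ j → ⟪b i, x (b j)⟫_ℂ = 0) ∧ IsMASA A M ∧
      ∀ ε : ℝ, 0 < ε → ε < 1 → ⌈(k : ℝ) / (2 * ε ^ 2)⌉₊ ≤ jointPavingNumber M A k ε :=
  ⟨fun _ _ hA => ⟨fun _ hε hε1 => Vale.Agent.P078.WG.joint_upper_lin hA hk hε hε1,
    (Vale.Agent.P078.WG.gap_joint hA hk).1, (Vale.Agent.P078.WG.gap_joint hA hk).2,
    Vale.Agent.P078.WG.growth_joint hA hk,
    fun hM hH => Vale.Agent.P078.WG.growth_BH_joint hM hA hH hk⟩,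
    fun _ _ b => Vale.Agent.P078.WG.growth_diag b hk⟩

end Vale.Agent.Results.P078.GrowthTrichotomy
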