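import Vale.Agent.P078.H291.JMain
import Vale.Agent.P078.H598.Low

namespace Vale.Agent.Results.P078.JointPaving

open Vale.Agent.P078.SO

theorem result {H : Type*} [NormedAddCommGroup H] [InnerProductSpace ℂ H] [CompleteSpace H]
    (M A : VonNeumannAlgebra H) (hA : IsMASA A M) :
    (∀ k : ℕ, 1 ≤ k → ∀ ε : ℝ, 0 < ε → ε < 1 →
      jointPavingNumber M A k ε ≤ ⌈1200002 * (k : ℝ) ^ 2 / ε ^ 2⌉₊) ∧
    (∀ ε : ℝ, jointPavingNumber M A 1 ε = pavingNumber M A 1 ε) ∧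
    (IsTypeII1Factor M → ∀ k : ℕ, 1 ≤ k → ∀ ε : ℝ, 0 < ε →
      ⌈1 / ε ^ 2⌉₊ ≤ jointPavingNumber M A k ε) ∧
    (∀ (k : ℕ) (v : Fin k → H), Orthonormal ℂ v →
      (∀ i j, InnerProductSpace.rankOne ℂ (v i) (v j) ∈ M) →
      (∀ i, InnerProductSpace.rankOne ℂ (v i) (v i) ∈ A) →
      ∀ ε : ℝ, 0 < ε → ε < 1 → (k : ℕ∞) ≤ jointPavingNumber M A k ε) :=
  ⟨fun _ hk _ hε hε1 => Vale.Agent.P078.WG.joint_upper hA hk hε hε1,
    fun ε => Vale.Agent.P078.WG.joint_one ε,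
    fun hM _ hk _ hε => Vale.Agent.P078.WG.le_jointPavingNumber_factor hA hM hk hε,
    fun _ v hv hM hAv _ hε hε1 => Vale.Agent.P078.WG.le_joint_of_rankOne hA v hv hM hAv hε hε1⟩

end Vale.Agent.Results.P078.JointPaving
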